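import Mathlib
import Vale.Agent.P161.Defs
import Vale.Agent.P161.RegTree
import Vale.Agent.P161.Main
import Vale.Agent.P161.Crit.Critical
import Vale.Agent.P161.Converse

/-!
P161: the free Ising measure on the regular tree is a factor of IID exactly up to and including
the reconstruction threshold.
-/

open MeasureTheory Vale.Agent.P161

/-- For every `d ≥ 3` and every `β ≥ 0`, on every countable `d`-regular tree the free Ising measure
exists, is unique, and is a factor of IID iff `(d-1) tanh(β)² ≤ 1`; and such a tree exists. -/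
theorem Vale.Agent.Results.P161.UpToThresholdFIID.result :
    ∀ d : ℕ, 3 ≤ d →
      (∃ (V : Type) (_ : Countable V) (G : SimpleGraph V) (_ : G.LocallyFinite),
        G.IsTree ∧ G.IsRegularOfDegree d) ∧
      ∀ (V : Type) [Countable V] (G : SimpleGraph V) [G.LocallyFinite],
        G.IsTree → G.IsRegularOfDegree d →
        ∀ β : ℝ, 0 ≤ β →
          ∃ μ : Measure (V → Bool), IsProbabilityMeasure μ ∧ IsFreeIsing G (Real.tanh β) μ ∧
            (∀ ν : Measure (V → Bool), IsFreeIsing G (Real.tanh β) ν → ν = μ) ∧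
            (IsFactorOfIID G μ ↔ ((d : ℝ) - 1) * Real.tanh β ^ 2 ≤ 1) := by
  intro d hd
  refine ⟨⟨Word d, inferInstance, wordTree d, inferInstance, wordTree_isTree d,
    wordTree_regular d⟩, fun V _ G _ hG hreg β hβ ↦ ?_⟩
  classical
  have h0 : 0 ≤ Real.tanh β := by
    rw [Real.tanh_eq_sinh_div_cosh]
    exact div_nonneg (Real.sinh_nonneg_iff.2 hβ) (Real.cosh_pos β).le
  have h1 : Real.tanh β < 1 := by
    rw [Real.tanh_eq_sinh_div_cosh, div_lt_one (Real.cosh_pos β)]
    exact Real.sinh_lt_cosh β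
  obtain ⟨r⟩ := hG.connected.nonempty
  refine ⟨isingM G (Real.tanh β) r, isingM_prob h0 h1.le r, isFreeIsing_isingM hG h0 h1 r,
    fun ν hν ↦ eq_isingM hG h0 h1 r hν, ⟨fun hfac ↦ not_lt.1 fun hgt ↦
      not_factorOfIID hG (by omega) hreg h0 h1 hgt (isFreeIsing_isingM hG h0 h1 r) hfac,
      fun hle ↦ ?_⟩⟩
  rcases hle.lt_or_eq with hlt | heq
  · exact factorOfIID_subcritical hG hd hreg h0 hlt r
  · refine Crit.factorOfIID_critical hG hd hreg h0 ?_ r
    rw [Nat.cast_sub (by omega), Nat.cast_one]
    exact heq
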